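import Vale.Agent.P141.H76.CapZ

/-!
# P141, line (A), flow part, hub x3: the masses of the third slot at every time

* `dat_C` : the data `H900.Num.Dat` of `|C|²`, order `(x3, x1)`;
* `mass_z` : one number for every time, summed over `x0`.
-/

namespace Vale.Agent.P141.H76

open Finset Matrix
open Vale.Agent.P141.PL (Pt iv ix mem_iv ix_ix cx cb)
open Vale.Agent.P141.PL.H315 (Tri)
open Vale.Agent.P141.H48 (US ES BSl sst)
open Vale.Agent.P141.H677 (kF rt)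
open Vale.Agent.P141.H677.Sk (FamA FamV Slt FDs)
open Vale.Agent.P141.H43 (nsq nsq_nonneg)
open Vale.Agent.P141.H401 (qC)
open Vale.Agent.P141.H769 (iv_pt)

noncomputable section

open scoped Classical

variable {ι : Type} [Fintype ι] [DecidableEq ι] {q : H401.Num} {n : ℕ} {ez : ℝ}
  {F1 F2 F3 : ℕ → Pt → ℝ} {K : ℕ} {x : Pt} {s r P : ℝ}
  {U : Tri} {g : ℤ → ℤ → ℝ} {u v : ℤ → ℤ → ι → ℝ} {A : FamA} {b C : FamV ι}
  {Q1 Q2 Q3 : ℕ → Pt → Prop} {v' : ℤ → ℤ → ι → ℝ}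

/-- the squared norm of the third slot -/
theorem nsq_C (hD : FDs q n ez F1 F2 F3 K x s r U g u v A b C Q1 Q2 Q3 v') (x0 : ℤ) (k : ℕ)
    (z w : ℤ) : nsq (C x0 k z w) = kF q.Lm U.2.1 K F2 k (x0, w, z) ^ 2 * nsq (v' w z) := by
  rw [hD.C_eq, nsq_smul]

/-- mass of a standard square, time `k + 1` -/
theorem massC1 (hD : FDs q n ez F1 F2 F3 K x s r U g u v A b C Q1 Q2 Q3 v')
    (hC : H305.Cls K x s r P U g u v) (hΛ : 0 ≤ q.Lm) (hs : 0 ≤ s) (hez : 0 ≤ ez) (hKn : K ≤ n)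
    {k : ℕ} (hk : k < K) (i : ℤ) {z' w' : ℤ} (hz' : z' ∈ iv (K - k) (ix K x.2.2))
    (hw' : w' ∈ iv (K - k) (ix K x.1)) :
    ∑ x0 ∈ iv k i, ∑ z ∈ iv k z', ∑ w ∈ iv k w', nsq (C x0 (k + 1) z w) ≤
      4 * ez * q.Lm * s * 8 ^ k := by
  have h := H816.mass_kF (X := x.1) (Y := x.2.2) hD.B2 hez hΛ hs hKn U.2.1 hC.U_v2 hk i hw' hz'
  refine le_trans (sum_le_sum fun x0 _ => ?_) h
  rw [sum_comm (s := iv k w')]
  refine sum_le_sum fun z hz => sum_le_sum fun w hw => ?_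
  rw [nsq_C hD]
  refine mul_le_mul_of_nonneg_left ?_ (sq_nonneg _)
  rcases hD.v_or w z with e | e
  · rw [e]
    refine hC.v_le w ?_ z ?_
    · rw [iv_pt]
      exact H576.root_mem hk.le hw' hw
    · rw [iv_pt]
      exact H576.root_mem hk.le hz' hz
  · rw [e]
    unfold H43.nsq
    rw [dotProduct_zero]
    exact sq_nonneg _

theorem C_zero (hD : FDs q n ez F1 F2 F3 K x s r U g u v A b C Q1 Q2 Q3 v') (x0 z w : ℤ) :
    nsq (C x0 0 z w) = 0 := by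
  rw [nsq_C hD]
  unfold H677.kF
  rw [if_pos (Or.inl rfl)]
  ring

/-- **The data of the masses of the third slot.** -/
theorem dat_C (hD : FDs q n ez F1 F2 F3 K x s r U g u v A b C Q1 Q2 Q3 v')
    (hC : H305.Cls K x s r P U g u v) (hΛ : 0 ≤ q.Lm) (hs : 0 ≤ s) (hez : 0 ≤ ez)
    (hKn : K ≤ n) : H900.Num.Dat K (cx K x).2.2 (cx K x).1 (fun x0 k z w => nsq (C x0 k z w))
      (qC q U K Q2) (4 * ez * q.Lm * s) (q.cP + 2) where
  B0 := by positivity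
  f0 _ _ _ _ := nsq_nonneg _
  ag x0 k hk i m hq z hz w hw := by
    have h := H576.agree_kD (H576.Dd_sst q.Lm U.2.1 K) hD.B2 (hk.trans_le hKn) hq hw hz
    have h' : kF q.Lm U.2.1 K F2 (k + 1) (x0, w, z) = kF q.Lm U.2.1 K F2 k (x0, w, z) := h
    rw [nsq_C hD, nsq_C hD, h']
  ms k hk j hj i z' hz' w' hw' := by
    rcases hj with rfl | ⟨rfl, hk'⟩
    · rcases Nat.eq_zero_or_pos j with rfl | hk0
      · have : ∑ x0 ∈ iv 0 i, ∑ z ∈ iv 0 z', ∑ w ∈ iv 0 w', nsq (C x0 0 z w) = 0 :=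
          sum_eq_zero fun x0 _ => sum_eq_zero fun z _ => sum_eq_zero fun w _ => C_zero hD x0 z w
        rw [this]
        positivity
      · obtain ⟨k', rfl⟩ := Nat.exists_eq_add_of_le' hk0
        have hk' : k' < K := hk
        have e1 : ∀ (m : ℤ) (f : ℤ → ℝ), ∑ y ∈ iv (k' + 1) m, f y =
            ∑ p ∈ iv 1 m, ∑ y ∈ iv k' p, f y := by
          intro m f
          have h := H900.Num.sum_iv_iv (a := k') (N := k' + 1) (Nat.le_succ k') m f
          rw [Nat.add_sub_cancel_left] at h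
          exact h.symm
        have c2 : ∀ m : ℤ, ((iv 1 m).card : ℝ) = 2 := by
          intro m
          rw [PL.card_iv]
          norm_num
        have m1 : ∀ {m R p : ℤ}, m ∈ iv (K - (k' + 1)) R → p ∈ iv 1 m → p ∈ iv (K - k') R := by
          intro m R p hm hp
          rw [mem_iv] at hm hp ⊢
          rw [← hm, ← hp, ix_ix]
          congr 1
          omega
        have h1 : ∑ x0 ∈ iv (k' + 1) i, ∑ z ∈ iv (k' + 1) z', ∑ w ∈ iv (k' + 1) w',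
            nsq (C x0 (k' + 1) z w) =
            ∑ i' ∈ iv 1 i, ∑ p ∈ iv 1 z', ∑ p' ∈ iv 1 w', ∑ x0 ∈ iv k' i', ∑ z ∈ iv k' p,
              ∑ w ∈ iv k' p', nsq (C x0 (k' + 1) z w) := by
          rw [e1 i]
          refine sum_congr rfl fun i' _ => ?_
          simp only [e1 z', e1 w']
          rw [sum_comm]
          refine sum_congr rfl fun p _ => ?_
          have e2 : ∀ x0 : ℤ, ∑ z ∈ iv k' p, ∑ p' ∈ iv 1 w', ∑ w ∈ iv k' p',
              nsq (C x0 (k' + 1) z w) = ∑ p' ∈ iv 1 w', ∑ z ∈ iv k' p, ∑ w ∈ iv k' p',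
              nsq (C x0 (k' + 1) z w) := fun x0 => sum_comm
          simp only [e2]
          rw [sum_comm]
        rw [h1]
        have h2 : ∀ i' ∈ iv 1 i, ∀ p ∈ iv 1 z', ∀ p' ∈ iv 1 w', ∑ x0 ∈ iv k' i', ∑ z ∈ iv k' p,
            ∑ w ∈ iv k' p', nsq (C x0 (k' + 1) z w) ≤ 4 * ez * q.Lm * s * 8 ^ k' :=
          fun i' _ p hp p' hp' => massC1 hD hC hΛ hs hez hKn hk' i' (m1 hz' hp) (m1 hw' hp')
        refine (sum_le_sum fun i' hi => sum_le_sum fun p hp => sum_le_sum fun p' hp' =>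
          h2 i' hi p hp p' hp').trans (le_of_eq ?_)
        rw [sum_const, sum_const, sum_const, nsmul_eq_mul, nsmul_eq_mul, nsmul_eq_mul, c2, c2, c2,
          pow_succ]
        ring
    · exact massC1 hD hC hΛ hs hez hKn hk' i hz' hw'
  pk x0 := H816.QD_pack' (H576.Dd_sst q.Lm U.2.1 K) hD.B2 x0 hKn _ _

/-- **The mass at every time**, one number at every `x0`. -/
theorem mass_z (hD : FDs q n ez F1 F2 F3 K x s r U g u v A b C Q1 Q2 Q3 v')
    (hC : H305.Cls K x s r P U g u v) (hΛ : 0 ≤ q.Lm) (hs : 0 ≤ s) (hez : 0 ≤ ez)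
    (hKn : K ≤ n) : ∃ MM : ℤ → ℝ, (∀ x0, 0 ≤ MM x0) ∧ (∀ x0, ∀ j ≤ K,
      ∑ x' ∈ iv K (cx K x).1, ∑ z ∈ iv K (cx K x).2.2, nsq (C x0 j z x') ≤ MM x0) ∧
      (∀ t, ∑ x0 ∈ iv K t, MM x0 ≤ 4 * ez * q.Lm * s * (q.cP + 3) * 8 ^ K) ∧
      ∑ t ∈ rt (cx K x), ∑ x0 ∈ iv K t, MM x0 ≤ 12 * ez * q.Lm * s * (q.cP + 3) * 8 ^ K := by
  have h := dat_C hD hC hΛ hs hez hKn
  have h1 : ∀ t, ∑ x0 ∈ iv K t, H900.Num.En K (cx K x).2.2 (cx K x).1
      (fun x0 k z w => nsq (C x0 k z w)) (qC q U K Q2) x0 ≤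
      4 * ez * q.Lm * s * (q.cP + 3) * 8 ^ K := by
    intro t
    refine (H900.Num.En_sum h t).trans (le_of_eq ?_)
    ring
  refine ⟨H900.Num.En K (cx K x).2.2 (cx K x).1 (fun x0 k z w => nsq (C x0 k z w))
    (qC q U K Q2), fun x0 => ?_, fun x0 j hj => ?_, h1, ?_⟩
  · refine le_trans ?_ (H900.Num.en_std h x0 le_rfl)
    exact sum_nonneg fun _ _ => sum_nonneg fun _ _ => nsq_nonneg _
  · rw [sum_comm]
    exact H900.Num.en_std h x0 hj
  · refine (sum_le_sum fun t _ => h1 t).trans ?_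
    rw [sum_const, nsmul_eq_mul]
    have hpos : 0 ≤ 4 * ez * q.Lm * s * (q.cP + 3) * 8 ^ K := by
      refine le_trans ?_ (h1 0)
      refine sum_nonneg fun x0 _ => le_trans ?_ (H900.Num.en_std h x0 le_rfl)
      exact sum_nonneg fun _ _ => sum_nonneg fun _ _ => nsq_nonneg _
    have hc : ((rt (cx K x)).card : ℝ) ≤ 3 := by
      have h3 : (rt (cx K x)).card ≤ 3 := by
        unfold H677.rt
        rw [Int.card_Icc]
        omega
      exact_mod_cast h3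
    calc ((rt (cx K x)).card : ℝ) * (4 * ez * q.Lm * s * (q.cP + 3) * 8 ^ K) ≤
        3 * (4 * ez * q.Lm * s * (q.cP + 3) * 8 ^ K) := mul_le_mul_of_nonneg_right hc hpos
      _ = _ := by ring

end

end Vale.Agent.P141.H76
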