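import Vale.Agent.P141.H76.NumE

/-!
# P141, line (A), flow part, hub x3: the cap of the stack on one shifted grid

* `wt_le` : the weight `ε² + R²` of a slot with cap `κ`;
* `ncap_cN` : the cap of the third slot on the shifted grid, every rectangle, times `min k a` and
  `min k a + 1`;
* `cap_z` : the field `cap` of `H505.Sk1.Num`.
-/

namespace Vale.Agent.P141.H76

open Finset Matrix
open Vale.Agent.P075 (Ix)
open Vale.Agent.P141.PL (Pt iv ix mem_iv ix_ix cx cb)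
open Vale.Agent.P141.PL.H315 (Tri)
open Vale.Agent.P141.H48 (US ES BSl sst)
open Vale.Agent.P141.H677.Sk (FamA FamV Slt av NumX FDs SlotN)
open Vale.Agent.P141.H747 (sft shA shB shC RgS RgS_mart av_RgS)
open Vale.Agent.P141.H43 (nsq nsq_nonneg)
open Vale.Agent.P141.H43.Seam (WQ MQ DQ WQ_wt)
open Vale.Agent.P141.H505.Sk1 (Num W3 Ch)
open Vale.Agent.P141.H215 (NCap nrm capV)

noncomputable section

open scoped Classical

variable {ι : Type} [Fintype ι] [DecidableEq ι]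

/-- **The weight of a slot with cap `κ`.** -/
theorem wt_le {R : Slt ι} {κ : ℝ} {x0 : ℤ} (hR : ∀ z x, (R x0 0 z x)ᵀ = R x0 0 z x)
    (hκ : ∀ z x, ∀ w : ι → ℝ, nsq (R x0 0 z x *ᵥ w) ≤ κ ^ 2 * nsq w) (ε : ℝ) (s : Pt)
    (x : ℤ) (k : ℕ) (m : ℤ) :
    ((ε ^ 2 + κ ^ 2) • (1 : Matrix ι ι ℝ) - WQ ε (RgS R s.2.2 s.1 x0) x k m).PosSemidef := by
  have hs := symm_RgS (s := s) hR k m x
  have e : (ε ^ 2 + κ ^ 2) • (1 : Matrix ι ι ℝ) - WQ ε (RgS R s.2.2 s.1 x0) x k m =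
      κ ^ 2 • (1 : Matrix ι ι ℝ) - RgS R s.2.2 s.1 x0 k m x * RgS R s.2.2 s.1 x0 k m x := by
    unfold H43.Seam.WQ
    rw [hs]
    module
  rw [e]
  refine PosSemidef.of_dotProduct_mulVec_nonneg ?_ fun w => ?_
  · unfold IsHermitian
    rw [conjTranspose_eq_transpose_of_trivial, transpose_sub, transpose_smul, transpose_one,
      transpose_mul, hs]
  · simp only [star_trivial]
    rw [sub_mulVec, dotProduct_sub, smul_mulVec, one_mulVec, dotProduct_smul, smul_eq_mul,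
      ← mulVec_mulVec]
    have h1 : w ⬝ᵥ RgS R s.2.2 s.1 x0 k m x *ᵥ (RgS R s.2.2 s.1 x0 k m x *ᵥ w) =
        (RgS R s.2.2 s.1 x0 k m x *ᵥ w) ⬝ᵥ (RgS R s.2.2 s.1 x0 k m x *ᵥ w) := by
      rw [dotProduct_mulVec, ← mulVec_transpose, hs]
    rw [h1]
    have h2 := H747.RgS_le (R := R) (q := κ ^ 2) (x0 := x0) (fun z x a => hκ z x a) s.2.2 s.1 k m x w
    linarith

variable {q : H401.Num} {n : ℕ} {ez : ℝ} {F1 F2 F3 : ℕ → Pt → ℝ} {K : ℕ} {x : Pt} {s r P : ℝ}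
  {U : Tri} {g : ℤ → ℤ → ℝ} {u v : ℤ → ℤ → ι → ℝ} {A : FamA} {b C : FamV ι}
  {Q1 Q2 Q3 : ℕ → Pt → Prop} {v' : ℤ → ℤ → ι → ℝ}

/-- **The third slot on the shifted grid, divided by `√ez`**, every rectangle. -/
theorem ncap_cN (hD : FDs q n ez F1 F2 F3 K x s r U g u v A b C Q1 Q2 Q3 v')
    (hC : H305.Cls K x s r P U g u v) (ht : 0 < q.t) (hs : 0 ≤ s) (hez : 0 < ez) (hKn : K ≤ n)
    (sh : Pt) (x0 : ℤ) {k a : ℕ} (hk : k ≤ K) (ha : a ≤ K) {j : ℕ} (hj : j ≤ min k a + 1)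
    (p p' : ℤ) :
    NCap (64 * √(q.Lm * s) * (2 ^ a * 2 ^ k)) (iv a p') (iv k p)
      (nrm (cN K (cx K x) sh (√ez)⁻¹ (C x0) j)) := by
  have h0 := H215.capV_nonneg (Λ := q.Lm) (s := s) hez.le
  have h1 : NCap (4 * (4 * capV q.Lm s ez) * (2 ^ k * 2 ^ a)) (iv k p) (iv a p')
      (nrm (sft K (cx K x).2.2 (cx K x).1 sh.2.2 sh.1 (C x0 (min j K)))) := by
    refine H215.ncap_sft (by positivity) hk ha (fun m3 h3 m1 h1 => ?_) _ _ _ _
    exact H883.ncap_FDs hD hC ht hs hez.le hKn (min_le_right _ _) ha hk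
      ((min_le_left _ _).trans (hj.trans (Nat.succ_le_succ (min_le_right _ _))))
      ((min_le_left _ _).trans (hj.trans (Nat.succ_le_succ (min_le_left _ _)))) h1 h3 x0
  have h2 := h1.flip
  have hi : 0 ≤ (√ez)⁻¹ := inv_nonneg.2 (Real.sqrt_nonneg _)
  have h3 := NCap.fam (C' := cN K (cx K x) sh (√ez)⁻¹ (C x0) j) h2 hi fun z _ y _ => by
    refine le_of_eq ?_
    exact nsq_smul (√ez)⁻¹ (shC K (cx K x) sh (C x0) (min j K) y z)
  refine h3.mono (le_of_eq ?_)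
  unfold H215.capV
  rw [inv_pow, Real.sq_sqrt hez.le]
  field_simp
  ring

/-- **The field `cap`** of the numbers of the stack on the shifted grid. -/
theorem cap_z (hD : FDs q n ez F1 F2 F3 K x s r U g u v A b C Q1 Q2 Q3 v')
    (hC : H305.Cls K x s r P U g u v) (ht : 0 < q.t) (hs : 0 ≤ s) (hez : 0 < ez) (hKn : K ≤ n)
    (sh : Pt) (x0 : ℤ) {R : Slt ι} {ε κ cC : ℝ} (hR : ∀ z x, (R x0 0 z x)ᵀ = R x0 0 z x)
    (hκ : ∀ z x, ∀ w : ι → ℝ, nsq (R x0 0 z x *ᵥ w) ≤ κ ^ 2 * nsq w)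
    (hc : 64 * (ε ^ 2 + κ ^ 2) * √(q.Lm * s) ≤ cC ^ 2) (k a : ℕ) (n' m : ℤ) (hk : k ≤ K)
    (ha : a ≤ K) (j : ℕ) (hj : j ≤ min k a + 1) :
    (cC ^ 2 • (1 : Matrix (Ix k) (Ix k) ℝ) -
      W3 (cN K (cx K x) sh (√ez)⁻¹ (C x0) j) (WQ ε (RgS R sh.2.2 sh.1 x0)) k a n'
        m).PosSemidef := by
  have h1 := ncap_cN hD hC ht hs hez hKn sh x0 hk ha hj m n'
  have h4 := NCap.qw (c := 64 * √(q.Lm * s)) (by positivity)
    (by positivity : (0 : ℝ) ≤ ε ^ 2 + κ ^ 2) h1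
    (M := fun x1 => WQ ε (RgS R sh.2.2 sh.1 x0) x1 k m)
    fun x1 _ => wt_le hR hκ ε sh x1 k m
  have h5 : ((cC ^ 2 - (ε ^ 2 + κ ^ 2) * (64 * √(q.Lm * s))) •
      (1 : Matrix (Ix k) (Ix k) ℝ)).PosSemidef := PosSemidef.one.smul (by linarith)
  have e := h5.add h4
  rw [sub_smul, sub_add_sub_cancel] at e
  exact e

end

end Vale.Agent.P141.H76
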