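import Vale.Agent.P141.H76.MassZ

/-!
# P141, line (A), flow part: the masses of the third slot on a packed family

`mass_pack` : the mass of `C` at the time `k + 1` on a family of cubes of scale `k` with packing
constant `P`.
-/

namespace Vale.Agent.P141.H76

open Finset Matrix
open Vale.Agent.P141.PL (Pt iv ix mem_iv ix_ix cx cb)
open Vale.Agent.P141.PL.H315 (Tri)
open Vale.Agent.P141.H677 (kF rt)
open Vale.Agent.P141.H677.Sk (FamA FamV Slt FDs)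
open Vale.Agent.P141.H43 (nsq nsq_nonneg)
open Vale.Agent.P141.H460 (GPack)
open Vale.Agent.P141.H900.Num (sum_iv_iv)

noncomputable section

open scoped Classical

theorem box_split {k K : ℕ} (hk : k ≤ K) (t a b : ℤ) (f : ℤ → ℤ → ℤ → ℝ) :
    ∑ x0 ∈ iv K t, ∑ w ∈ iv K a, ∑ z ∈ iv K b, f x0 w z =
      ∑ i ∈ iv (K - k) t, ∑ p ∈ iv (K - k) a, ∑ m ∈ iv (K - k) b,
        ∑ x0 ∈ iv k i, ∑ w ∈ iv k p, ∑ z ∈ iv k m, f x0 w z := by
  refine (sum_iv_iv hk t _).symm.trans (sum_congr rfl fun i _ => ?_)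
  have e1 : ∀ x0 : ℤ, ∑ w ∈ iv K a, ∑ z ∈ iv K b, f x0 w z =
      ∑ p ∈ iv (K - k) a, ∑ m ∈ iv (K - k) b, ∑ w ∈ iv k p, ∑ z ∈ iv k m, f x0 w z := by
    intro x0
    refine (sum_iv_iv hk a _).symm.trans (sum_congr rfl fun p _ => ?_)
    have e2 : ∀ w : ℤ, ∑ z ∈ iv K b, f x0 w z = ∑ m ∈ iv (K - k) b, ∑ z ∈ iv k m, f x0 w z :=
      fun w => (sum_iv_iv hk b _).symm
    simp only [e2]
    exact sum_comm
  simp only [e1]
  rw [sum_comm]
  refine sum_congr rfl fun p _ => ?_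
  exact sum_comm

/-- sums over a box by the cells of a scale -/
theorem box_le {k K : ℕ} (hk : k ≤ K) (t a b : ℤ) {f g : ℤ → ℤ → ℤ → ℝ}
    (h : ∀ i ∈ iv (K - k) t, ∀ p ∈ iv (K - k) a, ∀ m ∈ iv (K - k) b,
      ∑ x0 ∈ iv k i, ∑ w ∈ iv k p, ∑ z ∈ iv k m, f x0 w z ≤
        ∑ x0 ∈ iv k i, ∑ w ∈ iv k p, ∑ z ∈ iv k m, g x0 w z) :
    ∑ x0 ∈ iv K t, ∑ w ∈ iv K a, ∑ z ∈ iv K b, f x0 w z ≤
      ∑ x0 ∈ iv K t, ∑ w ∈ iv K a, ∑ z ∈ iv K b, g x0 w z := by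
  rw [box_split hk t a b f, box_split hk t a b g]
  exact sum_le_sum fun i hi => sum_le_sum fun p hp => sum_le_sum fun m hm => h i hi p hp m hm

/-- the number of the marked cubes below a root -/
theorem pack_box {Q : ℕ → Pt → Prop} {K : ℕ} {P : ℝ} (h : GPack Q K P) (t a b : ℤ) :
    ∑ k ∈ range K, ∑ x0 ∈ iv K t, ∑ w ∈ iv K a, ∑ z ∈ iv K b,
      (if Q k (cx k (x0, w, z)) then (1 : ℝ) else 0) ≤ P * 8 ^ K := by
  have h1 := h K le_rfl (t, a, b)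
  have e : ∑ y ∈ cb K (t, a, b), ∑ j ∈ range (K + 1), (if Q j (cx j y) then (1 : ℝ) else 0) =
      ∑ j ∈ range (K + 1), ∑ x0 ∈ iv K t, ∑ w ∈ iv K a, ∑ z ∈ iv K b,
        (if Q j (cx j (x0, w, z)) then (1 : ℝ) else 0) := by
    rw [sum_comm]
    refine sum_congr rfl fun j _ => ?_
    unfold PL.cb
    rw [sum_product]
    refine sum_congr rfl fun x0 _ => ?_
    rw [sum_product]
  rw [e, sum_range_succ] at h1
  have h2 : 0 ≤ ∑ x0 ∈ iv K t, ∑ w ∈ iv K a, ∑ z ∈ iv K b,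
      (if Q K (cx K (x0, w, z)) then (1 : ℝ) else 0) :=
    sum_nonneg fun _ _ => sum_nonneg fun _ _ => sum_nonneg fun _ _ => by
      split_ifs
      exacts [zero_le_one, le_rfl]
  linarith

variable {ι : Type} [Fintype ι] [DecidableEq ι] {q : H401.Num} {n : ℕ} {ez : ℝ}
  {F1 F2 F3 : ℕ → Pt → ℝ} {K : ℕ} {x : Pt} {s r P : ℝ}
  {U : Tri} {g : ℤ → ℤ → ℝ} {u v : ℤ → ℤ → ι → ℝ} {A : FamA} {b C : FamV ι}
  {Q1 Q2 Q3 : ℕ → Pt → Prop} {v' : ℤ → ℤ → ι → ℝ}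

/-- **The mass of the third slot at the time `k + 1` on a packed family.** -/
theorem mass_pack (hD : FDs q n ez F1 F2 F3 K x s r U g u v A b C Q1 Q2 Q3 v')
    (hC : H305.Cls K x s r P U g u v) (hΛ : 0 ≤ q.Lm) (hs : 0 ≤ s) (hez : 0 ≤ ez) (hKn : K ≤ n)
    {Q S : ℕ → Pt → Prop} {P' : ℝ} (hQ : GPack Q K P')
    (hS : ∀ k < K, ∀ y, S k y → Q k (cx k y)) (t : ℤ) :
    ∑ x0 ∈ iv K t, ∑ k ∈ range K, ∑ w ∈ iv K (cx K x).1, ∑ z ∈ iv K (cx K x).2.2,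
      (if S k (x0, w, z) then nsq (C x0 (k + 1) z w) else 0) ≤
      4 * ez * q.Lm * s * (P' * 8 ^ K) := by
  have hB : 0 ≤ 4 * ez * q.Lm * s := by positivity
  rw [sum_comm]
  calc ∑ k ∈ range K, ∑ x0 ∈ iv K t, ∑ w ∈ iv K (cx K x).1, ∑ z ∈ iv K (cx K x).2.2,
        (if S k (x0, w, z) then nsq (C x0 (k + 1) z w) else 0)
      ≤ ∑ k ∈ range K, ∑ x0 ∈ iv K t, ∑ w ∈ iv K (cx K x).1, ∑ z ∈ iv K (cx K x).2.2,
        4 * ez * q.Lm * s * (if Q k (cx k (x0, w, z)) then (1 : ℝ) else 0) := ?_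
    _ = 4 * ez * q.Lm * s * ∑ k ∈ range K, ∑ x0 ∈ iv K t, ∑ w ∈ iv K (cx K x).1,
        ∑ z ∈ iv K (cx K x).2.2, (if Q k (cx k (x0, w, z)) then (1 : ℝ) else 0) := by
      simp only [mul_sum]
    _ ≤ _ := mul_le_mul_of_nonneg_left (pack_box hQ t _ _) hB
  refine sum_le_sum fun k hk => ?_
  have hkK := mem_range.1 hk
  refine box_le hkK.le t _ _ fun i hi p hp m hm => ?_
  have hcx : ∀ x0 ∈ iv k i, ∀ w ∈ iv k p, ∀ z ∈ iv k m, cx k (x0, w, z) = (i, p, m) := by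
    intro x0 h0 w hw z hz
    unfold PL.cx
    rw [mem_iv.1 h0, mem_iv.1 hw, mem_iv.1 hz]
  by_cases hq : Q k (i, p, m)
  · have e1 : ∑ x0 ∈ iv k i, ∑ w ∈ iv k p, ∑ z ∈ iv k m,
        4 * ez * q.Lm * s * (if Q k (cx k (x0, w, z)) then (1 : ℝ) else 0) =
        4 * ez * q.Lm * s * 8 ^ k := by
      rw [sum_congr rfl fun x0 h0 => sum_congr rfl fun w hw => sum_congr rfl fun z hz => by
        rw [hcx x0 h0 w hw z hz, if_pos hq]]
      simp only [sum_const, PL.card_iv, nsmul_eq_mul]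
      push_cast
      have : (8 : ℝ) ^ k = 2 ^ k * 2 ^ k * 2 ^ k := by
        rw [← mul_pow, ← mul_pow]
        norm_num
      rw [this]
      ring
    rw [e1]
    refine le_trans ?_ (massC1 hD hC hΛ hs hez hKn hkK i hm hp)
    refine sum_le_sum fun x0 _ => ?_
    rw [sum_comm]
    refine sum_le_sum fun z _ => sum_le_sum fun w _ => ?_
    split_ifs
    exacts [le_rfl, nsq_nonneg _]
  · refine le_trans (le_of_eq ?_) (sum_nonneg fun _ _ => sum_nonneg fun _ _ =>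
      sum_nonneg fun _ _ => mul_nonneg hB (by split_ifs; exacts [zero_le_one, le_rfl]))
    refine sum_eq_zero fun x0 h0 => sum_eq_zero fun w hw => sum_eq_zero fun z hz => ?_
    rw [if_neg]
    intro h
    apply hq
    have := hS k hkK _ h
    rwa [hcx x0 h0 w hw z hz] at this

/-- the same at the time `k` on a family of cubes of scale `k`: the time `0` costs nothing -/
theorem mass_pack0 (hD : FDs q n ez F1 F2 F3 K x s r U g u v A b C Q1 Q2 Q3 v')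
    (hC : H305.Cls K x s r P U g u v) (hΛ : 0 ≤ q.Lm) (hs : 0 ≤ s) (hez : 0 ≤ ez) (hKn : K ≤ n)
    {Q S : ℕ → Pt → Prop} {P' : ℝ} (hQ : GPack Q K P')
    (hS : ∀ k ≤ K, ∀ y, S k y → Q k (cx k y)) (t : ℤ) :
    ∑ x0 ∈ iv K t, ∑ k ∈ range (K + 1), ∑ w ∈ iv K (cx K x).1, ∑ z ∈ iv K (cx K x).2.2,
      (if S k (x0, w, z) then nsq (C x0 k z w) else 0) ≤
      4 * ez * q.Lm * s * (P' * 8 ^ K) := by
  have hB : 0 ≤ 4 * ez * q.Lm * s := by positivity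
  have hD' := dat_C hD hC hΛ hs hez hKn
  rw [sum_comm]
  calc ∑ k ∈ range (K + 1), ∑ x0 ∈ iv K t, ∑ w ∈ iv K (cx K x).1, ∑ z ∈ iv K (cx K x).2.2,
        (if S k (x0, w, z) then nsq (C x0 k z w) else 0)
      ≤ ∑ k ∈ range (K + 1), ∑ x0 ∈ iv K t, ∑ w ∈ iv K (cx K x).1, ∑ z ∈ iv K (cx K x).2.2,
        4 * ez * q.Lm * s * (if Q k (cx k (x0, w, z)) then (1 : ℝ) else 0) := ?_
    _ = 4 * ez * q.Lm * s * ∑ k ∈ range (K + 1), ∑ x0 ∈ iv K t, ∑ w ∈ iv K (cx K x).1,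
        ∑ z ∈ iv K (cx K x).2.2, (if Q k (cx k (x0, w, z)) then (1 : ℝ) else 0) := by
      simp only [mul_sum]
    _ ≤ _ := by
      refine mul_le_mul_of_nonneg_left ?_ hB
      have h1 := hQ K le_rfl (t, (cx K x).1, (cx K x).2.2)
      refine le_trans (le_of_eq ?_) h1
      rw [sum_comm (s := PL.cb K _)]
      refine sum_congr rfl fun j _ => ?_
      unfold PL.cb
      rw [sum_product]
      refine sum_congr rfl fun x0 _ => ?_
      rw [sum_product]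
  refine sum_le_sum fun k hk => ?_
  have hkK : k ≤ K := Nat.lt_succ_iff.1 (mem_range.1 hk)
  refine box_le hkK t _ _ fun i hi p hp m hm => ?_
  have hcx : ∀ x0 ∈ iv k i, ∀ w ∈ iv k p, ∀ z ∈ iv k m, cx k (x0, w, z) = (i, p, m) := by
    intro x0 h0 w hw z hz
    unfold PL.cx
    rw [mem_iv.1 h0, mem_iv.1 hw, mem_iv.1 hz]
  by_cases hq : Q k (i, p, m)
  · have e1 : ∑ x0 ∈ iv k i, ∑ w ∈ iv k p, ∑ z ∈ iv k m,
        4 * ez * q.Lm * s * (if Q k (cx k (x0, w, z)) then (1 : ℝ) else 0) =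
        4 * ez * q.Lm * s * 8 ^ k := by
      rw [sum_congr rfl fun x0 h0 => sum_congr rfl fun w hw => sum_congr rfl fun z hz => by
        rw [hcx x0 h0 w hw z hz, if_pos hq]]
      simp only [sum_const, PL.card_iv, nsmul_eq_mul]
      push_cast
      have : (8 : ℝ) ^ k = 2 ^ k * 2 ^ k * 2 ^ k := by
        rw [← mul_pow, ← mul_pow]
        norm_num
      rw [this]
      ring
    rw [e1]
    refine le_trans ?_ (hD'.ms k hkK k (Or.inl rfl) i m hm p hp)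
    refine sum_le_sum fun x0 _ => ?_
    rw [sum_comm]
    refine sum_le_sum fun z _ => sum_le_sum fun w _ => ?_
    split_ifs
    exacts [le_rfl, nsq_nonneg _]
  · refine le_trans (le_of_eq ?_) (sum_nonneg fun _ _ => sum_nonneg fun _ _ =>
      sum_nonneg fun _ _ => mul_nonneg hB (by split_ifs; exacts [zero_le_one, le_rfl]))
    refine sum_eq_zero fun x0 h0 => sum_eq_zero fun w hw => sum_eq_zero fun z hz => ?_
    rw [if_neg]
    intro h
    apply hq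
    have := hS k hkK _ h
    rwa [hcx x0 h0 w hw z hz] at this

end

end Vale.Agent.P141.H76
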