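import Vale.Agent.P141.H811.NumPM
import Vale.Agent.P141.H43.SeamPM
import Vale.Agent.P141.H677.SlotX
import Vale.Agent.P141.H900.NumMass
import Vale.Agent.P141.H883.CapN
import Vale.Agent.P141.H816.FDatM

/-!
# P141, line (A), flow part, hub x3: energies and moves of the stack on one shifted grid

* `sft_mat`, `sh_sum` : the shifted family under a translated matrix, sums over any root;
* `mv_Rg`, `th_eq`, `m_eq` : the slot on the grid in the letters of `H235.S1`;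
* `en_num`, `q_num`, `q2_num` : the fields of `NumX` on the shifted grid.
-/

namespace Vale.Agent.P141.H76

open Finset Matrix
open Vale.Agent.P075 (Ix)
open Vale.Agent.P141.PL (Pt iv ix mem_iv ix_ix cx cb)
open Vale.Agent.P141.PL.H315 (Tri)
open Vale.Agent.P141.H48 (US ES BSl sst)
open Vale.Agent.P141.H677 (kF rt)
open Vale.Agent.P141.H677.Sk (FamA FamV Slt av NumX FDs SlotN)
open Vale.Agent.P141.H747 (sft shA shB shC RgS RgS_mart av_RgS)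
open Vale.Agent.P141.H43 (nsq nsq_nonneg)
open Vale.Agent.P141.H43.Seam (WQ MQ DQ Q_left Q_right DQ_symm WQ_wt)
open Vale.Agent.P141.H235.S1 (Mv ThF MF eR qD qDR)
open Vale.Agent.P141.H505.Sk1 (Num W3 Ch)
open Vale.Agent.P141.H215 (NCap nrm capV)

noncomputable section

open scoped Classical

variable {κ : Type} [Fintype κ] [DecidableEq κ]

/-! ### Shifts -/

omit [DecidableEq κ] in
/-- the shifted family under a translated matrix -/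
theorem sft_mat (K : ℕ) (M s : Pt) (C : ℕ → ℤ → ℤ → κ → ℝ) (i : ℕ)
    (T : ℤ → ℤ → Matrix κ κ ℝ) {T' : Matrix κ κ ℝ} {z x : ℤ}
    (hT : T' = T (z + s.2.2) (x + s.1)) :
    nsq (T' *ᵥ shC K M s C i z x) =
      sft K M.2.2 M.1 s.2.2 s.1 (fun z x => nsq (T z x *ᵥ C i z x)) z x := by
  unfold H747.shC H747.sft
  split_ifs
  · rw [hT]
  · rw [mulVec_zero]
    unfold H43.nsq
    rw [dotProduct_zero]

omit [DecidableEq κ] in
/-- the shifted family -/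
theorem sft_vec (K : ℕ) (M s : Pt) (C : ℕ → ℤ → ℤ → κ → ℝ) (i : ℕ) (z x : ℤ) :
    nsq (shC K M s C i z x) =
      sft K M.2.2 M.1 s.2.2 s.1 (fun z x => nsq (C i z x)) z x := by
  unfold H747.shC H747.sft
  split_ifs
  · rfl
  · unfold H43.nsq
    rw [dotProduct_zero]

/-- sums over any root -/
theorem sh_sum (K : ℕ) (M s : Pt) (r1 r3 : ℤ) {f : ℤ → ℤ → ℝ} (hf : ∀ z x, 0 ≤ f z x) :
    ∑ x ∈ iv K r1, ∑ z ∈ iv K r3, sft K M.2.2 M.1 s.2.2 s.1 f z x ≤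
      ∑ x ∈ iv K M.1, ∑ z ∈ iv K M.2.2, f z x := by
  rw [sum_comm]
  exact (H900.Num.sh_root K M.2.2 M.1 s.2.2 s.1 _ _ hf).trans (le_of_eq sum_comm)

/-! ### The slot on the grid -/

/-- the slot on the grid -/
def Rg (R : Slt κ) (s : Pt) (x0 : ℤ) : ℤ → ℕ → ℤ → Matrix κ κ ℝ :=
  fun x k m => RgS R s.2.2 s.1 x0 k m x

/-- its half differences -/
def Dg (R : Slt κ) (s : Pt) (x0 : ℤ) : ℤ → ℕ → ℤ → Matrix κ κ ℝ :=
  fun x k m => DQ (RgS R s.2.2 s.1 x0) k m x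

variable {R : Slt κ} {s : Pt} {x0 : ℤ}

omit [DecidableEq κ] in
theorem symm_RgS (hR : ∀ z x, (R x0 0 z x)ᵀ = R x0 0 z x) (k : ℕ) (n x : ℤ) :
    (RgS R s.2.2 s.1 x0 k n x)ᵀ = RgS R s.2.2 s.1 x0 k n x := by
  unfold H747.RgS
  rw [transpose_smul, transpose_sum]
  simp only [hR]

omit [DecidableEq κ] in
theorem mv_Rg (hR : ∀ z x, (R x0 0 z x)ᵀ = R x0 0 z x) (K : ℕ) (s : Pt) :
    Mv K (Rg R s x0) (Dg R s x0) where
  symR x k m := symm_RgS hR k m x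
  symD x k m := DQ_symm (fun k n x => symm_RgS hR k n x) k m x
  left x k m _ := Q_left (fun k n x => RgS_mart R s.2.2 s.1 x0 k n x) k m x
  right x k m _ := Q_right (fun k n x => RgS_mart R s.2.2 s.1 x0 k n x) k m x

theorem th_eq (hR : ∀ z x, (R x0 0 z x)ᵀ = R x0 0 z x) (ε : ℝ) (s : Pt) :
    ThF (ε ^ 2) (Rg R s x0) = WQ ε (RgS R s.2.2 s.1 x0) := by
  funext x k m
  exact (WQ_wt (fun k m x => symm_RgS hR k m x) x k m).symm

omit [DecidableEq κ] in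
theorem m_eq (s : Pt) : MF (Rg R s x0) (Dg R s x0) = MQ (RgS R s.2.2 s.1 x0) := rfl

omit [DecidableEq κ] in
/-- the difference of the slot on the cell and on its parent -/
theorem DQ_sq (R : Slt κ) (s : Pt) (x0 : ℤ) (k : ℕ) (z x : ℤ) (w : κ → ℝ) :
    nsq (DQ (RgS R s.2.2 s.1 x0) (k + 1) (ix (k + 1) z) x *ᵥ w) =
      nsq ((RgS R s.2.2 s.1 x0 k (ix k z) x - RgS R s.2.2 s.1 x0 (k + 1) (ix (k + 1) z) x) *ᵥ
        w) := by
  have hm := fun k n x => RgS_mart R s.2.2 s.1 x0 k n x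
  rcases H235.S1.ix_half k z with e | e
  · have h : RgS R s.2.2 s.1 x0 k (ix k z) x - RgS R s.2.2 s.1 x0 (k + 1) (ix (k + 1) z) x =
        DQ (RgS R s.2.2 s.1 x0) (k + 1) (ix (k + 1) z) x := by
      rw [e, Q_left hm]
      abel
    rw [h]
  · have h : RgS R s.2.2 s.1 x0 k (ix k z) x - RgS R s.2.2 s.1 x0 (k + 1) (ix (k + 1) z) x =
        -DQ (RgS R s.2.2 s.1 x0) (k + 1) (ix (k + 1) z) x := by
      rw [e, Q_right hm]
      abel
    rw [h, neg_mulVec]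
    unfold H43.nsq
    rw [neg_dotProduct_neg]

/-! ### The numbers -/

/-- the third slot on the grid, stopped at the time `K`, divided by `√ez`, order `x1`, `x3` -/
def cN (K : ℕ) (M s : Pt) (a : ℝ) (C : ℕ → ℤ → ℤ → κ → ℝ) (k : ℕ) (x z : ℤ) : κ → ℝ :=
  a • shC K M s C (min k K) z x

omit [DecidableEq κ] in
theorem nsq_smul (a : ℝ) (v : κ → ℝ) : nsq (a • v) = a ^ 2 * nsq v := by
  unfold H43.nsq
  rw [smul_dotProduct, dotProduct_smul, smul_eq_mul, smul_eq_mul]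
  ring

omit [DecidableEq κ] in
theorem nsq_mat (a : ℝ) (T : Matrix κ κ ℝ) (v : κ → ℝ) :
    nsq (T *ᵥ (a • v)) = a ^ 2 * nsq (T *ᵥ v) := by
  rw [mulVec_smul, nsq_smul]

section num

variable {K : ℕ} {M : Pt} {C : FamV κ} {X a : ℝ}

omit [DecidableEq κ] in
/-- **Energies.** -/
theorem en_num (r1 r3 : ℤ) {Ex : ℤ → ℝ} {x0 : ℤ}
    (hE : ∀ k ≤ K, ∀ j ≤ K, j ≤ k + 1 →
      ∑ x ∈ iv K M.1, ∑ z ∈ iv K M.2.2, nsq (av R s.2.2 x0 k z x *ᵥ C x0 j z x) ≤ Ex x0)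
    {k : ℕ} (hk : k ≤ K) {j : ℕ} (hj : j ≤ k + 1) :
    ∑ x ∈ iv K r1, ∑ z ∈ iv K r3, eR (cN K M s a (C x0) j) (Rg R s x0) k x z ≤
      a ^ 2 * Ex x0 := by
  have e : ∀ x z, eR (cN K M s a (C x0) j) (Rg R s x0) k x z =
      a ^ 2 * sft K M.2.2 M.1 s.2.2 s.1
        (fun z x => nsq (av R s.2.2 x0 k z x *ᵥ C x0 (min j K) z x)) z x := by
    intro x z
    rw [← sft_mat K M s (C x0) (min j K) (fun z x => av R s.2.2 x0 k z x)
      (av_RgS R s.2.2 s.1 x0 k z x).symm]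
    exact nsq_mat a _ _
  simp only [e, ← mul_sum]
  refine mul_le_mul_of_nonneg_left ?_ (sq_nonneg a)
  exact (sh_sum K M s r1 r3 fun z x => nsq_nonneg _).trans
    (hE k hk (min j K) (min_le_right _ _) ((min_le_left _ _).trans hj))

omit [DecidableEq κ] in
/-- **Moves.** -/
theorem q_pt (x0 : ℤ) {k : ℕ} (hk : k < K) (x z : ℤ) :
    qD (cN K M s a (C x0) (k + 1)) (Dg R s x0) k x z =
      a ^ 2 * sft K M.2.2 M.1 s.2.2 s.1 (fun z x => nsq ((av R s.2.2 x0 k z x -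
        av R s.2.2 x0 (k + 1) z x) *ᵥ C x0 (k + 1) z x)) z x := by
  have h1 : qD (cN K M s a (C x0) (k + 1)) (Dg R s x0) k x z =
      nsq (DQ (RgS R s.2.2 s.1 x0) (k + 1) (ix (k + 1) z) x *ᵥ
        (a • shC K M s (C x0) (min (k + 1) K) z x)) := rfl
  rw [h1, min_eq_left (show k + 1 ≤ K from hk), DQ_sq, nsq_mat]
  congr 1
  refine sft_mat K M s (C x0) (k + 1)
    (fun z x => av R s.2.2 x0 k z x - av R s.2.2 x0 (k + 1) z x) ?_

  rw [av_RgS, av_RgS]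

/-- **Products.** -/
theorem q2_pt (x0 : ℤ) {k : ℕ} (hk : k < K) (x z : ℤ) :
    qDR (cN K M s a (C x0) (k + 1)) (Rg R s x0) (Dg R s x0) k x z =
      a ^ 2 * sft K M.2.2 M.1 s.2.2 s.1 (fun z x => nsq ((av R s.2.2 x0 k z x -
        av R s.2.2 x0 (k + 1) z x) *ᵥ (av R s.2.2 x0 (k + 1) z x *ᵥ C x0 (k + 1) z x))) z x := by
  have h1 : qDR (cN K M s a (C x0) (k + 1)) (Rg R s x0) (Dg R s x0) k x z =
      nsq (DQ (RgS R s.2.2 s.1 x0) (k + 1) (ix (k + 1) z) x *ᵥ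
        (RgS R s.2.2 s.1 x0 (k + 1) (ix (k + 1) z) x *ᵥ
          (a • shC K M s (C x0) (min (k + 1) K) z x))) := rfl
  rw [h1, min_eq_left (show k + 1 ≤ K from hk), DQ_sq, mulVec_smul, nsq_mat]
  congr 1
  rw [mulVec_mulVec]
  simp only [mulVec_mulVec]
  refine sft_mat K M s (C x0) (k + 1) (fun z x => (av R s.2.2 x0 k z x -
    av R s.2.2 x0 (k + 1) z x) * av R s.2.2 x0 (k + 1) z x) ?_

  rw [av_RgS, av_RgS]

/-- one root of the three -/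
theorem one_root {t : ℤ} (ht : t ∈ rt M) {F : ℤ → ℝ} (hF : ∀ x0, 0 ≤ F x0) {X : ℝ}
    (h : ∑ t ∈ rt M, ∑ x0 ∈ iv K t, F x0 ≤ X) : ∑ x0 ∈ iv K t, F x0 ≤ X :=
  (single_le_sum (f := fun t => ∑ x0 ∈ iv K t, F x0)
    (fun t _ => sum_nonneg fun x0 _ => hF x0) ht).trans h

omit [DecidableEq κ] in
theorem q_num (r1 r3 : ℤ) {t : ℤ} (ht : t ∈ rt M)
    (hX : ∑ t ∈ rt M, ∑ x0 ∈ iv K t, ∑ k ∈ range K, ∑ x ∈ iv K M.1, ∑ z ∈ iv K M.2.2,
      nsq ((av R s.2.2 x0 k z x - av R s.2.2 x0 (k + 1) z x) *ᵥ C x0 (k + 1) z x) ≤ X) :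
    ∑ x0 ∈ iv K t, ∑ k ∈ range K, ∑ x ∈ iv K r1, ∑ z ∈ iv K r3,
      qD (cN K M s a (C x0) (k + 1)) (Dg R s x0) k x z ≤ a ^ 2 * X := by
  have h0 := one_root ht (F := fun x0 => ∑ k ∈ range K, ∑ x ∈ iv K M.1, ∑ z ∈ iv K M.2.2,
      nsq ((av R s.2.2 x0 k z x - av R s.2.2 x0 (k + 1) z x) *ᵥ C x0 (k + 1) z x))
    (fun x0 => sum_nonneg fun _ _ => sum_nonneg fun _ _ => sum_nonneg fun _ _ => nsq_nonneg _) hX
  refine le_trans ?_ (mul_le_mul_of_nonneg_left h0 (sq_nonneg a))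
  rw [mul_sum]
  refine sum_le_sum fun x0 _ => ?_
  rw [mul_sum]
  refine sum_le_sum fun k hk => ?_
  simp only [q_pt x0 (mem_range.1 hk), ← mul_sum]
  exact mul_le_mul_of_nonneg_left (sh_sum K M s r1 r3 fun z x => nsq_nonneg _) (sq_nonneg a)

theorem q2_num (r1 r3 : ℤ) {t : ℤ} (ht : t ∈ rt M)
    (hX : ∑ t ∈ rt M, ∑ x0 ∈ iv K t, ∑ k ∈ range K, ∑ x ∈ iv K M.1, ∑ z ∈ iv K M.2.2,
      nsq ((av R s.2.2 x0 k z x - av R s.2.2 x0 (k + 1) z x) *ᵥ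
        (av R s.2.2 x0 (k + 1) z x *ᵥ C x0 (k + 1) z x)) ≤ X) :
    ∑ x0 ∈ iv K t, ∑ k ∈ range K, ∑ x ∈ iv K r1, ∑ z ∈ iv K r3,
      qDR (cN K M s a (C x0) (k + 1)) (Rg R s x0) (Dg R s x0) k x z ≤ a ^ 2 * X := by
  have h0 := one_root ht (F := fun x0 => ∑ k ∈ range K, ∑ x ∈ iv K M.1, ∑ z ∈ iv K M.2.2,
      nsq ((av R s.2.2 x0 k z x - av R s.2.2 x0 (k + 1) z x) *ᵥ
        (av R s.2.2 x0 (k + 1) z x *ᵥ C x0 (k + 1) z x)))
    (fun x0 => sum_nonneg fun _ _ => sum_nonneg fun _ _ => sum_nonneg fun _ _ => nsq_nonneg _) hX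
  refine le_trans ?_ (mul_le_mul_of_nonneg_left h0 (sq_nonneg a))
  rw [mul_sum]
  refine sum_le_sum fun x0 _ => ?_
  rw [mul_sum]
  refine sum_le_sum fun k hk => ?_
  simp only [q2_pt x0 (mem_range.1 hk), ← mul_sum]
  exact mul_le_mul_of_nonneg_left (sh_sum K M s r1 r3 fun z x => nsq_nonneg _) (sq_nonneg a)

end num

end

end Vale.Agent.P141.H76
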